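import Vale.Agent.P207.H662.FrS
import Vale.Agent.P207.H662.Pt
import Vale.Agent.P207.H662.Scale
import Vale.Agent.P207.H662.ScT
import Vale.Agent.P207.H469.KInst
import Vale.Agent.P207.H442.FrC2

/-!
# P207, block QF: the rank one calculus of a negatively curved locally symmetric metric
-/

open scoped Manifold ContDiff ENNReal Topology RealInnerProductSpace
open Bundle MeasureTheory Set Filter Module

set_option maxSynthPendingDepth 3
set_option linter.unusedSectionVars false

noncomputable section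

namespace Vale.Agent.P207.H662

open Vale.Agent.P255 (RMetric)
open Vale.Agent.P207 Vale.Agent.P207.Q Vale.Agent.P207.Q.H545 Vale.Agent.P207.H442
open Vale.Agent.P207.H747 (ACT En ee act act_R exists_rank_one)
open Vale.Agent.P207.H469 (RankOne NN exists_rankOne)

variable {m : ℕ} {M : Type} [TopologicalSpace M] [ChartedSpace (EV (m + 1)) M]
  [IsManifold 𝓘(ℝ, EV (m + 1)) ∞ M] {g : RMetric (EV (m + 1)) M}
variable [CompactSpace M] [T2Space M] [Nonempty (Fr g)]

theorem ev_kr (p : Fr g) {κ : ℕ} (i j : Fin κ) (f : SmFr g) :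
    ev p (kr i j f) = if i = j then ev p f else 0 := by
  unfold kr
  split_ifs
  · rfl
  · exact ev_zero p

theorem ev_alg (p : Fr g) (c : ℝ) : ev p (algebraMap ℝ (SmFr g) c) = c := by
  rw [Algebra.algebraMap_eq_smul_one, ev_smul, ev_one, mul_one]

/-- the scaled pointwise curvature tensor -/
def actS [ConnectedSpace M] (hL : LocSymmetric g) (hN : NegCurvature g) {b : ℝ} (hb : 0 < b)
    (f : Fr g) : ACT (En (m + 1)) :=
  (act hL hN f).scale (4 / b ^ 2) (div_pos (by norm_num) (pow_pos hb 2))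

section

variable [ConnectedSpace M] (hL : LocSymmetric g) (hN : NegCurvature g) {b : ℝ} (hb : 0 < b)

theorem actS_rc (f : Fr g) (i j k l : Fin (m + 1)) :
    rc (actS hL hN hb f) i j k l = ev f ((sc (frCalc g) (2 / b)).R i j k l) := by
  have h1 : rc (actS hL hN hb f) i j k l = (4 / b ^ 2) * Rf g f i j k l := by
    rw [← act_R hL hN f i j k l]
    rfl
  rw [h1, sc_R, ev_smul]
  change _ = 2 / b * (2 / b) * Rf g f i j k l
  congr 1
  rw [div_mul_div_comm]
  norm_num [sq]

theorem actS_pc (f : Fr g) (i j : Fin m) :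
    pc (actS hL hN hb f) i j = ev f (Pc (sc (frCalc g) (2 / b)) i j) := by
  unfold pc Pc Kc
  rw [ev_smul, ev_sub, ev_kr, ev_one, actS_rc]

theorem actS_tc (f : Fr g) (i j k : Fin m) :
    rc (actS hL hN hb f) 0 i.succ j.succ k.succ = ev f (Tc (sc (frCalc g) (2 / b)) i j k) :=
  actS_rc hL hN hb f _ _ _ _

end

theorem eig_scale {V : Type*} [AddCommGroup V] [Module ℝ V] (T : End ℝ V) {c a a' : ℝ}
    (hc : c ≠ 0) (ha : a' = c * a) :
    End.eigenspace (c • T) a' = End.eigenspace T a := by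
  ext z
  rw [End.mem_eigenspace_iff, End.mem_eigenspace_iff, LinearMap.smul_apply, ha, mul_smul]
  exact ⟨fun h => smul_right_injective V hc h, fun h => by rw [h]⟩

/-- the scaled calculus of a metric whose curvature has the constants `b`, `d` at every frame -/
theorem rk1_of [ConnectedSpace M] (hm : 1 ≤ m) (hL : LocSymmetric g) (hN : NegCurvature g)
    {b : ℝ} {d : ℕ} (hb : 0 < b) (hbd : ∀ f : Fr g, (act hL hN f).Nrm b ∧
      ∀ v : En (m + 1), ‖v‖ = 1 →
      finrank ℝ (End.eigenspace ((act hL hN f).K v) (b ^ 2)) = d) :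
    Rk1 (sc (frCalc g) (2 / b)) d := by
  have hS : ∀ f : Fr g, (actS hL hN hb f).Nrm 2 := fun f => (hbd f).1.two
  have hb2 : b ^ 2 ≠ 0 := (pow_pos hb 2).ne'
  have htr : ∀ f : Fr g, ∑ i, pc (actS hL hN hb f) i i = (d : ℝ) := by
    intro f
    rw [pc_trace (hS f), ← (hbd f).2 (ee 0) norm_e0]
    have h1 : End.eigenspace ((actS hL hN hb f).K (ee 0)) 4 =
        End.eigenspace ((act hL hN f).K (ee 0)) (b ^ 2) := by
      have h2 : (actS hL hN hb f).K (ee 0) = (4 / b ^ 2) • (act hL hN f).K (ee 0) := rfl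
      rw [h2]
      exact eig_scale _ (div_ne_zero (by norm_num) hb2) (by field_simp)
    rw [h1]
  obtain ⟨c₀, -, hc₀⟩ := exists_einstein (by omega) hN hL
  have hc : (2 / b * (2 / b)) * c₀ = m + 3 * d := by
    obtain ⟨f⟩ := ‹Nonempty (Fr g)›
    have h1 : (sc (frCalc g) (2 / b)).Ric 0 0 = -((2 / b * (2 / b)) • (c₀ • (1 : SmFr g))) := by
      rw [sc_Ric, hc₀, if_pos rfl, smul_neg]
    have h2 := congrArg (ev f) h1
    rw [ev_neg, ev_smul, ev_smul, ev_one, mul_one] at h2
    have h3 : ev f ((sc (frCalc g) (2 / b)).Ric 0 0) = - (m + 3 * d : ℝ) := by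
      have e1 : (sc (frCalc g) (2 / b)).Ric 0 0 =
          - ∑ i : Fin m, Kc (sc (frCalc g) (2 / b)) i i := by
        rw [FrCalc.Ric, Fin.sum_univ_succ, FrCalc.R_self, zero_add, ← Finset.sum_neg_distrib]
        exact Finset.sum_congr rfl fun i _ => (sc (frCalc g) (2 / b)).R_skew _ _ _ _
      rw [e1, ev_neg, ev_sum]
      congr 1
      have e2 : ∀ i : Fin m, ev f (Kc (sc (frCalc g) (2 / b)) i i) =
          1 + 3 * pc (actS hL hN hb f) i i := by
        intro i
        rw [K_eq, actS_pc, ev_add, ev_mul, ev_kr, if_pos rfl, ev_one]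
        have : (3 : SmFr g) = algebraMap ℝ (SmFr g) 3 := (map_ofNat _ 3).symm
        rw [this, ev_alg]
      simp only [e2, Finset.sum_add_distrib, ← Finset.mul_sum, htr]
      simp
    rw [h3] at h2
    linarith
  refine ⟨sc_Par _ _ (par_frCalc hL), ?_, ?_, ?_⟩
  · intro i j
    rw [sc_Ric, hc₀]
    unfold kr
    split_ifs
    · rw [smul_neg, smul_smul, hc, Algebra.algebraMap_eq_smul_one]
    · rw [smul_zero, neg_zero]
  · intro i k
    apply ext_ev
    intro f
    have h1 := pc_idem (hS f) i k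
    simp only [actS_pc] at h1
    rw [ev_sum, ← h1]
    exact Finset.sum_congr rfl fun j _ => ev_mul _ _ _
  · intro l i j
    apply ext_ev
    intro f
    have h1 := pc_leaf (hS f) l i j
    simp only [actS_pc, actS_tc] at h1
    rw [ev_sum, ev_zero, ← h1]
    exact Finset.sum_congr rfl fun k _ => by rw [ev_mul, ev_add]

/-- **the calculus of a negatively curved locally symmetric metric, scaled to the curvatures
`1` and `4`** -/
theorem exists_rk1 [ConnectedSpace M] (hm : 1 ≤ m) (hL : LocSymmetric g)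
    (hN : NegCurvature g) :
    ∃ (b : ℝ) (d : ℕ), 0 < b ∧ (∀ f : Fr g, (act hL hN f).Nrm b ∧ ∀ v : En (m + 1), ‖v‖ = 1 →
      finrank ℝ (End.eigenspace ((act hL hN f).K v) (b ^ 2)) = d) ∧
      Rk1 (sc (frCalc g) (2 / b)) d := by
  obtain ⟨b, d, hb, hbd⟩ := exists_rank_one (by omega) hL hN
  exact ⟨b, d, hb, hbd, rk1_of hm hL hN hb hbd⟩

/-- **the rank one data of a negatively curved locally symmetric metric**: `b²` is the largest
eigenvalue of the Jacobi operators, `d` its multiplicity; the calculus and its scaled version -/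
theorem exists_rk1_rankOne [ConnectedSpace M] (hm : 1 ≤ m) (hL : LocSymmetric g)
    (hN : NegCurvature g) :
    ∃ (b c₀ : ℝ) (d : ℕ), 0 < b ∧ 0 < c₀ ∧ 2 / b * (2 / b) * c₀ = m + 3 * d ∧
      (∀ f : Fr g, (act hL hN f).Nrm b ∧ ∀ v : En (m + 1), ‖v‖ = 1 →
        finrank ℝ (End.eigenspace ((act hL hN f).K v) (b ^ 2)) = d) ∧
      RankOne (frCalc g) b c₀ ∧ NN (m + 1) b c₀ = d + 1 ∧
      Rk1 (sc (frCalc g) (2 / b)) d ∧ RankOne (sc (frCalc g) (2 / b)) 2 (m + 3 * d) := by
  obtain ⟨b, c₀, d, hb, hc, hR, hNN, hbd⟩ := exists_rankOne (by omega) hL hN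
  have h1 : 2 / b * (2 / b) * c₀ = m + 3 * d := by
    have hb' : b ≠ 0 := hb.ne'
    unfold NN at hNN
    push_cast at hNN
    field_simp at hNN ⊢
    linarith
  have h2 := sc_RankOne hR
  rw [h1] at h2
  exact ⟨b, c₀, d, hb, hc, h1, hbd, hR, hNN, rk1_of hm hL hN hb hbd, h2⟩

end Vale.Agent.P207.H662
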