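import Vale.Agent.P207.H662.Geo
import Vale.Agent.P207.H747.TypeQ

/-!
# P207, block QF: the rank one calculus of a metric of quaternionic or Cayley type
-/

open scoped Manifold ContDiff ENNReal Topology RealInnerProductSpace
open Bundle MeasureTheory Set Filter Module

set_option maxSynthPendingDepth 3
set_option linter.unusedSectionVars false

noncomputable section

namespace Vale.Agent.P207.H662

open Vale.Agent.P255 (RMetric)
open Vale.Agent.P207 Vale.Agent.P207.Q Vale.Agent.P207.Q.H545 Vale.Agent.P207.H442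
open Vale.Agent.P207.H747 (ACT En ee act act_R en_induct exists_qc)
open Vale.Agent.P207.H469 (RankOne NN)

section Pt

variable {n : ℕ}

/-- curvature tensors which are proportional on the basis are proportional -/
theorem act_ext_smul {S T : ACT (En n)} {c : ℝ}
    (h : ∀ i j k l, S.R (ee i) (ee j) (ee k) l = c * T.R (ee i) (ee j) (ee k) l) (x y z : En n) :
    S.R x y z = c • T.R x y z := by
  have hb : ∀ i j k, S.R (ee i) (ee j) (ee k) = c • T.R (ee i) (ee j) (ee k) := by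
    intro i j k
    ext l
    rw [h, PiLp.smul_apply, smul_eq_mul]
  revert x y z
  refine en_induct ?_ ?_ ?_ ?_
  · intro y z; simp
  · intro x x' hx hx' y z
    simp only [map_add, LinearMap.add_apply, hx, hx', smul_add]
  · intro c x hx y z
    simp only [map_smul, LinearMap.smul_apply, hx, smul_comm c]
  intro i
  refine en_induct ?_ ?_ ?_ ?_
  · intro z; simp
  · intro x x' hx hx' z
    simp only [map_add, LinearMap.add_apply, hx, hx', smul_add]
  · intro c x hx z
    simp only [map_smul, LinearMap.smul_apply, hx, smul_comm c]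
  intro j
  refine en_induct ?_ ?_ ?_ ?_
  · simp
  · intro x x' hx hx'
    simp only [map_add, hx, hx', smul_add]
  · intro c x hx
    simp only [map_smul, hx, smul_comm c]
  exact fun k => hb i j k

/-- the normalisation determines the scale -/
theorem nrm_scale_unique {S T : ACT (En n)} {b b' : ℝ} (hb' : 0 < b') (hT : T.Nrm b)
    (hS : S.Nrm 2) (h : ∀ x y z, S.R x y z = (4 / b' ^ 2) • T.R x y z) {v : En n}
    (hv : ‖v‖ = 1) : b' = b := by
  have hb2 : b' ^ 2 ≠ 0 := (pow_pos hb' 2).ne'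
  have hK : ∀ z, S.K v z = (4 / b' ^ 2) • T.K v z := fun z => h v z v
  have hK' : ∀ z, T.K v z = (b' ^ 2 / 4) • S.K v z := by
    intro z
    rw [hK, smul_smul, div_mul_div_cancel₀ (by norm_num), div_self hb2, one_smul]
  obtain ⟨y, hy0, hy⟩ := hS.att v hv
  obtain ⟨z, hz0, hz⟩ := hT.att v hv
  have h1 : b' ^ 2 ≤ b ^ 2 := by
    refine hT.bd v hv _ y ?_ hy0
    rw [hK', hy, smul_smul]
    congr 1
    ring
  have h2 : 4 / b' ^ 2 * b ^ 2 ≤ 2 ^ 2 := by
    refine hS.bd v hv _ z ?_ hz0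
    rw [hK, hz, smul_smul]
  have h3 : b ^ 2 ≤ b' ^ 2 := by
    rw [div_mul_eq_mul_div, div_le_iff₀ (pow_pos hb' 2)] at h2
    nlinarith
  exact (sq_eq_sq₀ hb'.le hT.pos.le).1 (le_antisymm h1 h3)

end Pt

variable {m : ℕ} {M : Type} [TopologicalSpace M] [ChartedSpace (EV (m + 1)) M]
  [IsManifold 𝓘(ℝ, EV (m + 1)) ∞ M] {g : RMetric (EV (m + 1)) M}
variable [CompactSpace M] [T2Space M] [Nonempty (Fr g)]

/-- **the rank one data of a metric of quaternionic or Cayley type** -/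
theorem exists_rk1_qc [ConnectedSpace M] (hL : LocSymmetric g) (hN : NegCurvature g)
    (hq : Kat.QCType g) :
    ∃ (b c₀ : ℝ) (d : ℕ), 0 < b ∧ 0 < c₀ ∧ 2 / b * (2 / b) * c₀ = m + 3 * d ∧
      ((d = 3 ∧ ∃ q : ℕ, 2 ≤ q ∧ m + 1 = 4 * q) ∨ (d = 7 ∧ m + 1 = 16)) ∧
      (∀ f : Fr g, (act hL hN f).Nrm b ∧ ∀ v : En (m + 1), ‖v‖ = 1 →
        finrank ℝ (End.eigenspace ((act hL hN f).K v) (b ^ 2)) = d) ∧
      RankOne (frCalc g) b c₀ ∧ NN (m + 1) b c₀ = d + 1 ∧
      Rk1 (sc (frCalc g) (2 / b)) d ∧ RankOne (sc (frCalc g) (2 / b)) 2 (m + 3 * d) := by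
  obtain ⟨b', d', hb', hd', hdn, H⟩ := exists_qc hL hN hq
  obtain ⟨b, c₀, d, hb, hc, hbc, hbd, hR, hNN, h1, h2⟩ :=
    exists_rk1_rankOne (g := g) (by omega) hL hN
  obtain ⟨f⟩ := ‹Nonempty (Fr g)›
  obtain ⟨S, s1, s2, s3⟩ := H f
  have hS := act_ext_smul (S := S) (T := act hL hN f) (c := 4 / b' ^ 2) (fun i j k l => by
    rw [s2, act_R])
  have hbb : b' = b := nrm_scale_unique hb' (hbd f).1 s1 hS norm_e0
  have hdd : d' = d := by
    rw [← (s3 (ee 0) norm_e0).1, ← (hbd f).2 (ee 0) norm_e0]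
    have h3 : S.K (ee 0) = (4 / b' ^ 2) • (act hL hN f).K (ee 0) := by
      ext1 z
      exact hS _ _ _
    rw [h3, eig_scale (a := b ^ 2) _ (div_ne_zero (by norm_num) (pow_pos hb' 2).ne')
      (by rw [hbb]; field_simp)]
  subst hdd
  exact ⟨b, c₀, d', hb, hc, hbc, hd', hbd, hR, hNN, h1, h2⟩

end Vale.Agent.P207.H662
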