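import Vale.Agent.P207.H662.Geo
import Vale.Agent.P207.H662.ScRot
import Vale.Agent.P207.H379.KatB
import Vale.Agent.P207.Low.Stmt

/-!
# P207: block LOW on the frame bundle of the reference metric, from the certificate for the
calculus scaled to the curvatures `1` and `4`
-/

open scoped Manifold ContDiff ENNReal Topology RealInnerProductSpace
open Bundle MeasureTheory Set Filter Module

set_option maxSynthPendingDepth 3
set_option linter.unusedSectionVars false

noncomputable section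

namespace Vale.Agent.P207.H662

open Vale.Agent.P255 (RMetric)
open Vale.Agent.P207 Vale.Agent.P207.Q Vale.Agent.P207.Q.H545 Vale.Agent.P207.H442
open Vale.Agent.P207.H747 (ACT En ee act act_R)
open Vale.Agent.P207.H469 (RankOne NN k22)
open Vale.Agent.P207.H379 (rotStab t2_of_GT2 k00_scal gAdm_iff)
open Vale.Agent.P207.Low

variable {m : ℕ} {M : Type} [TopologicalSpace M] [ChartedSpace (EV (m + 1)) M]
  [IsManifold 𝓘(ℝ, EV (m + 1)) ∞ M] {g : RMetric (EV (m + 1)) M}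
variable [CompactSpace M] [T2Space M] [MeasurableSpace M] [BorelSpace M] (D : Kat.Dat g)

theorem dat_nonneg (f : SmFr g) : 0 ≤ D.I (f * f) :=
  integral_nonneg fun p => mul_self_nonneg ((f : C(Fr g, ℝ)) p)

theorem dat_def (f : SmFr g) (h : D.I (f * f) = 0) : f = 0 := by
  have hc : Continuous fun p : Fr g => (f : C(Fr g, ℝ)) p * (f : C(Fr g, ℝ)) p :=
    (f : C(Fr g, ℝ)).continuous.mul (f : C(Fr g, ℝ)).continuous
  by_contra hne
  have h3 : ∃ p, (f : C(Fr g, ℝ)) p ≠ 0 := by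
    by_contra hcon
    push Not at hcon
    apply hne
    apply Subtype.ext
    ext p
    exact hcon p
  obtain ⟨p, hp⟩ := h3
  have h4 := hc.integral_pos_of_hasCompactSupport_nonneg_nonzero (μ := D.mP)
    (HasCompactSupport.of_compactSpace _) (fun p => mul_self_nonneg _) (mul_self_ne_zero.2 hp)
  exact absurd h h4.ne'

variable [Nonempty (Fr g)]

theorem dat_isInt : (frCalc g).IsInt D.I := isInt_intF D.hP D.hφ D.hmp

/-- the ladder algebra of one eigenspace for the scaled calculus of the frame bundle -/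
def ladF {b d : ℝ} (h : Rk1 (sc (frCalc g) (2 / b)) d) (mu : ℝ) :=
  ladE h (sc_IsInt (frCalc g) (2 / b) (dat_isInt D)) (dat_nonneg D)
    (scStab (rotStab g) (2 / b)) mu

/-- the functions of one eigenspace -/
abbrev WF {b d : ℝ} (h : Rk1 (sc (frCalc g) (2 / b)) d) (mu : ℝ) : Submodule ℝ h.sys.B :=
  WE h (sc_IsInt (frCalc g) (2 / b) (dat_isInt D)) (dat_nonneg D) (scStab (rotStab g) (2 / b)) mu

theorem sc_t2_of_GT2 {k : Fin (m + 1) → Fin (m + 1) → SmFr g} (hk : Kat.GT2 k) (c : ℝ) :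
    (sc (frCalc g) c).T2 k := (sc_T2 (frCalc g) c).2 (t2_of_GT2 hk)

/-- **LOW on the frame bundle** in the form of H824 (`hlow`), from the positivity at the three
components of the tensor -/
theorem low_frame {b c₀ : ℝ} {d : ℝ} (hb : 0 < b) (hd : 0 ≤ d)
    (hbc : 2 / b * (2 / b) * c₀ = m + 3 * d) (h : Rk1 (sc (frCalc g) (2 / b)) d)
    (hR : RankOne (frCalc g) b c₀)
    {k : Fin (m + 1) → Fin (m + 1) → SmFr g} (hk : Kat.GT2 k)
    (hc : (∀ i, (frCalc g).H i (trk k) = 0) → trk k = 0)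
    {lam mu : ℝ} (hmu : 2 / b * (2 / b) * lam = mu)
    (hcert : ∀ (hφ : phiB h (sc_t2_of_GT2 hk _) ∈ WF D h mu)
      (hw : twoB h (sc_t2_of_GT2 hk _) ∈ WF D h mu) (ht : ttB h (sc_t2_of_GT2 hk _) ∈ WF D h mu),
      CertAt (ladF D h mu) mu ⟨phiB h (sc_t2_of_GT2 hk _), hφ⟩ ⟨twoB h (sc_t2_of_GT2 hk _), hw⟩
        ⟨ttB h (sc_t2_of_GT2 hk _), ht⟩)
    (hcas : ∀ i j, (frCalc g).cas (k i j) = (-lam) • k i j)
    (hdiv : ∀ j, Kat.divf (frCalc g) (k22 (frCalc g) b c₀ k) j = 0) (hne : k ≠ 0) :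
    ∃ y : Fin (m + 1) → SmFr g, Kat.GAdm y ∧ (∀ i, (frCalc g).cas (y i) = (-lam) • y i) ∧
      0 < Kat.Qf (frCalc g) D.I k y := by
  subst hmu
  obtain ⟨y, hy, hcy, hQ⟩ := low_of_cert_sc hb hbc h (dat_isInt D) (dat_nonneg D) (rotStab g)
    (dat_def D) hc hR hd (sc_t2_of_GT2 hk _) hk.1 hcert (k00_scal hk) hcas hdiv hne
  exact ⟨y, gAdm_iff.2 hy, hcy, hQ⟩

/-- **LOW on the frame bundle** from the certificates on the eigenspaces -/
theorem lowStmt_of_cert {b c₀ : ℝ} {d : ℝ} (hb : 0 < b) (hd : 0 ≤ d)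
    (hbc : 2 / b * (2 / b) * c₀ = m + 3 * d) (h : Rk1 (sc (frCalc g) (2 / b)) d)
    (hR : RankOne (frCalc g) b c₀)
    (hc : ∀ k : Fin (m + 1) → Fin (m + 1) → SmFr g, Kat.GT2 k → D.I (trk k) = 0 →
      (∀ i, (frCalc g).H i (trk k) = 0) → trk k = 0)
    (hcert : ∀ mu, Cert (ladF D h mu) mu) : LOWStmt D b c₀ := fun lam _ hk hcas hdiv htr hne =>
  low_frame D hb hd hbc h hR hk (hc _ hk htr) (lam := lam) rfl (fun _ _ _ => hcert _ _ _ _)
    hcas hdiv hne

end Vale.Agent.P207.H662
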